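import Vale.Agent.P189.H741.Iface

set_option autoImplicit false

open scoped Pointwise

namespace Vale.Agent.P189.M

/-! ## Transfer of `MultiData` along an isomorphism -/

section Transfer

variable {G H ι : Type} [Group G] [Group H]

theorem sub_map (e : G →* H) (p q : ι → G) (t : G) (J : Set ι) :
    (sub p q t J).map e = sub (fun i => e (p i)) (fun i => e (q i)) (e t) J := by
  rw [sub, MonoidHom.map_closure, sub, Set.image_union, Set.image_union, Set.image_singleton,
    Set.image_image, Set.image_image]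

theorem closure_pair_map (e : G →* H) (a b : G) :
    (Subgroup.closure {a, b}).map e = Subgroup.closure {e a, e b} := by
  rw [MonoidHom.map_closure, Set.image_pair]

theorem closure_triple_map (e : G →* H) (a b c : G) :
    (Subgroup.closure {a, b, c}).map e = Subgroup.closure {e a, e b, e c} := by
  rw [MonoidHom.map_closure, Set.image_insert_eq, Set.image_pair]

theorem zpowers_map (e : G →* H) (a : G) :
    (Subgroup.zpowers a).map e = Subgroup.zpowers (e a) :=
  MonoidHom.map_zpowers e a

theorem inf_map (e : G ≃* H) {A B C : Subgroup G} (h : A ⊓ B = C) :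
    A.map e.toMonoidHom ⊓ B.map e.toMonoidHom = C.map e.toMonoidHom := by
  rw [← h, Subgroup.map_inf _ _ _ e.injective]

theorem twoOfThree_preimage (e : G ≃* H) {g : G} {S : Set G} (h : TwoOfThree g S) :
    TwoOfThree (e g) (e.symm ⁻¹' S) := by
  intro x
  have := h (e.symm x)
  simpa [Set.mem_preimage, smul_eq_mul, map_mul] using this

/-- Transfer along an isomorphism. -/
theorem MultiData.transfer {p q : ι → G} {t : G} (h : MultiData G ι p q t) (e : G ≃* H) :
    MultiData H ι (fun i => e (p i)) (fun i => e (q i)) (e t) := by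
  have hinj : Function.Injective e.toMonoidHom := e.injective
  have hs : ∀ J : Set ι, (sub p q t J).map e.toMonoidHom =
      sub (fun i => e (p i)) (fun i => e (q i)) (e t) J := fun J => sub_map e.toMonoidHom p q t J
  have h2 : ∀ a b : G, (Subgroup.closure {a, b}).map e.toMonoidHom =
      Subgroup.closure {e a, e b} := fun a b => closure_pair_map e.toMonoidHom a b
  have h3 : ∀ a b c : G, (Subgroup.closure {a, b, c}).map e.toMonoidHom =
      Subgroup.closure {e a, e b, e c} := fun a b c => closure_triple_map e.toMonoidHom a b c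
  have hz : ∀ a : G, (Subgroup.zpowers a).map e.toMonoidHom = Subgroup.zpowers (e a) :=
    fun a => zpowers_map e.toMonoidHom a
  have hr : ∀ i, e (q i * p i * (q i)⁻¹) = e (q i) * e (p i) * (e (q i))⁻¹ := fun i => by simp
  refine ⟨?_, ?_, ?_, ?_, ?_, ?_, ?_, ?_, ?_, ?_, ?_, ?_, ?_, ?_, ?_, ?_⟩
  · intro i; rw [← map_pow, h.p3, map_one]
  · intro i; rw [← map_pow, h.q3, map_one]
  · intro i hi; exact h.p1 i (e.injective (by rw [hi, map_one]))
  · intro i hi; exact h.q1 i (e.injective (by rw [hi, map_one]))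
  · intro i; rw [← map_mul, h.tp, map_mul]
  · intro i; rw [← hr, ← map_mul, h.tr, map_mul]
  · intro n hn
    exact h.tinf n (e.injective (by rw [map_pow, hn, map_one]))
  · rw [← hs, h.gen]
    exact Subgroup.map_top_of_surjective _ e.surjective
  · intro i
    have := Grp.nf_map (h.nf i) e.toMonoidHom hinj
    rwa [h2, h3, hr] at this
  · intro i
    have := inf_map e (h.inf i)
    rwa [h2, h3, h2, hr] at this
  · intro i
    have := Grp.nf_map (h.nf0 i) e.toMonoidHom hinj
    rwa [hz, hz] at this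
  · intro i
    have := inf_map e (h.inf0 i)
    rwa [hz, hz, Subgroup.map_bot] at this
  · intro i
    obtain ⟨TP, TN, hd, hP, hN⟩ := h.color i
    exact ⟨e.symm ⁻¹' TP, e.symm ⁻¹' TN, hd.preimage _, twoOfThree_preimage e hP,
      twoOfThree_preimage e hN⟩
  · intro K _ a b ha hb
    obtain ⟨φ, h1, h2', h3'⟩ := h.lift K a b ha hb
    exact ⟨φ.comp e.symm.toMonoidHom, fun i => by simp [h1], fun i => by simp [h2'],
      by simp [h3']⟩
  · intro J J' hJ
    have := Grp.nf_map (h.split_nf J J' hJ) e.toMonoidHom hinj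
    rwa [hs, hs] at this
  · intro J J' hJ
    have := inf_map e (h.split_inf J J' hJ)
    rwa [hs, hs, hz] at this

end Transfer

/-! ## The relations hold in the presented group -/

section Rel

variable {ι : Type}

theorem rel_eq (r : FreeGroup (Option (ι × Bool))) (hr : r ∈ rels ι) :
    (PresentedGroup.mk (rels ι) r) = 1 :=
  PresentedGroup.one_of_mem hr

theorem gP3 (i : ι) : (gP i) ^ 3 = (1 : Gam ι) := by
  have := rel_eq (ι := ι) (FreeGroup.of (some (i, true)) ^ 3)
    (Set.mem_iUnion.2 ⟨i, by simp⟩)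
  simpa [gP, PresentedGroup.of] using this

theorem gQ3 (i : ι) : (gQ i) ^ 3 = (1 : Gam ι) := by
  have := rel_eq (ι := ι) (FreeGroup.of (some (i, false)) ^ 3)
    (Set.mem_iUnion.2 ⟨i, by simp⟩)
  simpa [gQ, PresentedGroup.of] using this

theorem gTP (i : ι) : gT * gP i = gP i * (gT : Gam ι) := by
  have := rel_eq (ι := ι) (FreeGroup.of none * FreeGroup.of (some (i, true)) *
    (FreeGroup.of none)⁻¹ * (FreeGroup.of (some (i, true)))⁻¹)
    (Set.mem_iUnion.2 ⟨i, by simp⟩)
  have h : gT * gP i * (gT : Gam ι)⁻¹ * (gP i)⁻¹ = 1 := by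
    simpa [gP, gT, PresentedGroup.of] using this
  rw [mul_inv_eq_one, mul_inv_eq_iff_eq_mul] at h
  exact h

theorem gTR (i : ι) : gT * (gQ i * gP i * (gQ i)⁻¹) = (gQ i * gP i * (gQ i)⁻¹) * (gT : Gam ι) := by
  have := rel_eq (ι := ι) (FreeGroup.of none * (FreeGroup.of (some (i, false)) *
    FreeGroup.of (some (i, true)) * (FreeGroup.of (some (i, false)))⁻¹) *
    (FreeGroup.of none)⁻¹ * (FreeGroup.of (some (i, false)) *
    FreeGroup.of (some (i, true)) * (FreeGroup.of (some (i, false)))⁻¹)⁻¹)
    (Set.mem_iUnion.2 ⟨i, by simp⟩)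
  have h : gT * (gQ i * gP i * (gQ i)⁻¹) * (gT : Gam ι)⁻¹ * (gQ i * gP i * (gQ i)⁻¹)⁻¹ = 1 := by
    simpa only [gP, gQ, gT, PresentedGroup.of, map_mul, map_inv] using this
  rw [mul_inv_eq_one, mul_inv_eq_iff_eq_mul] at h
  exact h

end Rel

/-- ROW E. -/
theorem presSt : PresSt := by
  intro hG ι _
  obtain ⟨G, hGr, p, q, t, hD, hU⟩ := hG ι
  obtain ⟨φ, hφp, hφq, hφt⟩ := hU (Gam ι) gP gQ gT gP3 gQ3 gTP gTR
  let f : Option (ι × Bool) → G := fun x => match x with
    | none => t
    | some (i, true) => p i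
    | some (i, false) => q i
  have hf : ∀ r ∈ rels ι, FreeGroup.lift f r = 1 := by
    intro r hr
    obtain ⟨i, hi⟩ := Set.mem_iUnion.1 hr
    simp only [Set.mem_insert_iff, Set.mem_singleton_iff] at hi
    rcases hi with rfl | rfl | rfl | rfl
    · simp [f, hD.p3]
    · simp [f, hD.q3]
    · simp only [map_mul, map_inv, FreeGroup.lift_apply_of, f]
      rw [mul_inv_eq_one, mul_inv_eq_iff_eq_mul]
      exact hD.tp i
    · simp only [map_mul, map_inv, FreeGroup.lift_apply_of, f]
      rw [mul_inv_eq_one, mul_inv_eq_iff_eq_mul]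
      exact hD.tr i
  let ψ : Gam ι →* G := PresentedGroup.toGroup hf
  have hψp : ∀ i, ψ (gP i) = p i := fun i => PresentedGroup.toGroup.of hf
  have hψq : ∀ i, ψ (gQ i) = q i := fun i => PresentedGroup.toGroup.of hf
  have hψt : ψ gT = t := PresentedGroup.toGroup.of hf
  have h1 : φ.comp ψ = MonoidHom.id _ := by
    apply PresentedGroup.ext
    rintro (_ | ⟨i, (_ | _)⟩)
    · change φ (ψ gT) = gT
      rw [hψt, hφt]
    · change φ (ψ (gQ i)) = gQ i
      rw [hψq, hφq]
    · change φ (ψ (gP i)) = gP i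
      rw [hψp, hφp]
  have h2 : ψ.comp φ = MonoidHom.id _ := by
    have hle : sub p q t Set.univ ≤ (ψ.comp φ).eqLocus (MonoidHom.id _) := by
      rw [sub, Subgroup.closure_le]
      rintro x ((⟨i, -, rfl⟩ | ⟨i, -, rfl⟩) | hx)
      · change ψ (φ (p i)) = p i
        rw [hφp, hψp]
      · change ψ (φ (q i)) = q i
        rw [hφq, hψq]
      · rw [Set.mem_singleton_iff] at hx
        rw [hx]
        change ψ (φ t) = t
        rw [hφt, hψt]
    rw [hD.gen, top_le_iff] at hle
    ext x
    have : x ∈ (ψ.comp φ).eqLocus (MonoidHom.id _) := by rw [hle]; trivial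
    exact this
  let e : G ≃* Gam ι := MonoidHom.toMulEquiv φ ψ h2 h1
  have := hD.transfer e
  have ep : (fun i => e (p i)) = gP := funext hφp
  have eq : (fun i => e (q i)) = gQ := funext hφq
  have et : e t = gT := hφt
  rwa [ep, eq, et] at this

end Vale.Agent.P189.M
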