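import Vale.Agent.P189.H741.Grp

set_option autoImplicit false

open Function Monoid

namespace Vale.Agent.P189.M

open Grp

/-! ## The retraction `GG → ℤ` -/

noncomputable def rFam : ∀ i, Fam i →* Multiplicative ℤ
  | true => 1
  | false => MonoidHom.snd Lam (Multiplicative ℤ)

/-- The retraction onto `⟨t⟩`. -/
noncomputable def retr : GG →* Multiplicative ℤ :=
  PushoutI.lift rFam 1 (by
    intro i
    cases i with
    | true => rfl
    | false => rfl)

theorem retr_tt : retr tt = Multiplicative.ofAdd 1 :=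
  PushoutI.lift_of (φ := phi) rFam 1 _ (i := false) _

theorem retr_zeta (x : Multiplicative ℤ) : retr (zeta x) = x := by
  obtain ⟨n, rfl⟩ := Multiplicative.ofAdd.surjective x
  rw [zeta_ofAdd, map_zpow, retr_tt, ← ofAdd_zsmul, smul_eq_mul, mul_one]

/-! ## The comparison map -/

section Split

variable {ι : Type} (J J' : Set ι)

/-- The two subgroups. -/
noncomputable abbrev SB (b : Bool) : Subgroup (MG ι) := sub mp mq (mt : MG ι) (cond b J J')

theorem mt_mem (K : Set ι) : (mt : MG ι) ∈ sub mp mq (mt : MG ι) K :=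
  Subgroup.subset_closure (by simp)

theorem base_eq_zpow (n : ℤ) :
    PushoutI.base (fun _ : ι => zeta) (Multiplicative.ofAdd n) = (mt : MG ι) ^ n := by
  rw [mt, ← map_zpow, ← ofAdd_zsmul, smul_eq_mul, mul_one]

theorem base_mem (K : Set ι) (x : Multiplicative ℤ) :
    PushoutI.base (fun _ : ι => zeta) x ∈ sub mp mq (mt : MG ι) K := by
  obtain ⟨n, rfl⟩ := Multiplicative.ofAdd.surjective x
  rw [base_eq_zpow]
  exact Subgroup.zpow_mem _ (mt_mem K) n

theorem ofM_mem {K : Set ι} {i : ι} (hi : i ∈ K) (g : GG) :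
    ofM i g ∈ sub mp mq (mt : MG ι) K := by
  have h : (⊤ : Subgroup GG) ≤ (sub mp mq (mt : MG ι) K).comap (ofM i) := by
    rw [← groupData.gen, Subgroup.closure_le]
    rintro x (rfl | rfl | rfl)
    · exact Subgroup.subset_closure (Or.inl (Or.inl ⟨i, hi, rfl⟩))
    · exact Subgroup.subset_closure (Or.inl (Or.inr ⟨i, hi, rfl⟩))
    · change ofM i tt ∈ sub mp mq (mt : MG ι) K
      rw [ofM_tt]
      exact mt_mem K
  exact h (Subgroup.mem_top g)

/-- `ℤ` into the two subgroups. -/
noncomputable def thB (b : Bool) : Multiplicative ℤ →* SB J J' b :=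
  (PushoutI.base (fun _ : ι => zeta)).codRestrict (SB J J' b) (base_mem _)

theorem base_inj_of (i : ι) : Injective (PushoutI.base (fun _ : ι => zeta)) := by
  intro x y h
  rw [← PushoutI.of_apply_eq_base (fun _ : ι => zeta) i x,
    ← PushoutI.of_apply_eq_base (fun _ : ι => zeta) i y] at h
  exact zeta_inj (ofM_inj i h)

theorem thB_inj [Nonempty ι] (b : Bool) : Injective (thB J J' b) := by
  intro x y h
  exact base_inj_of (Classical.arbitrary ι) (congrArg Subtype.val h)

/-- A copy into one of the two subgroups. -/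
noncomputable def codB (b : Bool) {i : ι} (hi : i ∈ cond b J J') : GG →* SB J J' b :=
  (ofM i).codRestrict (SB J J' b) (ofM_mem hi)

/-- The amalgam of the two subgroups. -/
abbrev QQ : Type := PushoutI (thB J J')

open Classical in
/-- The comparison map on a copy. -/
noncomputable def psiF (i : ι) : GG →* QQ J J' :=
  if h : i ∈ J then (PushoutI.of (φ := thB J J') true).comp (codB J J' true h)
  else if h' : i ∈ J' then (PushoutI.of (φ := thB J J') false).comp (codB J J' false h')
  else (PushoutI.base (thB J J')).comp retr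

theorem codB_zeta (b : Bool) {i : ι} (hi : i ∈ cond b J J') (x : Multiplicative ℤ) :
    codB J J' b hi (zeta x) = thB J J' b x :=
  Subtype.ext (PushoutI.of_apply_eq_base (fun _ : ι => zeta) i x)

theorem psiF_zeta (i : ι) : (psiF J J' i).comp zeta = PushoutI.base (thB J J') := by
  refine MonoidHom.ext fun x => ?_
  rw [MonoidHom.comp_apply]
  unfold psiF
  split_ifs with h h'
  · rw [MonoidHom.comp_apply, codB_zeta, PushoutI.of_apply_eq_base]
  · rw [MonoidHom.comp_apply, codB_zeta, PushoutI.of_apply_eq_base]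
  · rw [MonoidHom.comp_apply, retr_zeta]

/-- The comparison map. -/
noncomputable def Psi : MG ι →* QQ J J' :=
  PushoutI.lift (psiF J J') (PushoutI.base (thB J J')) (psiF_zeta J J')

theorem Psi_ofM (i : ι) (g : GG) : Psi J J' (ofM i g) = psiF J J' i g :=
  PushoutI.lift_of (φ := fun _ : ι => zeta) (psiF J J') _ _ _

theorem Psi_base (x : Multiplicative ℤ) :
    Psi J J' (PushoutI.base (fun _ : ι => zeta) x) = PushoutI.base (thB J J') x :=
  PushoutI.lift_base (φ := fun _ : ι => zeta) (psiF J J') _ _ _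

variable {J J'}

theorem psiF_of (hd : Disjoint J J') (b : Bool) {i : ι} (hi : i ∈ cond b J J') (g : GG) :
    psiF J J' i g = PushoutI.of (φ := thB J J') b (codB J J' b hi g) := by
  cases b with
  | true =>
    unfold psiF
    rw [dif_pos (show i ∈ J from hi)]
    rfl
  | false =>
    have h : i ∉ J := fun h => Set.disjoint_left.1 hd h hi
    unfold psiF
    rw [dif_neg h, dif_pos (show i ∈ J' from hi)]
    rfl

theorem Psi_mem (hd : Disjoint J J') (b : Bool) (x : MG ι) (hx : x ∈ SB J J' b) :
    Psi J J' x = PushoutI.of (φ := thB J J') b ⟨x, hx⟩ := by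
  induction hx using Subgroup.closure_induction with
  | mem x h =>
    rcases h with (⟨i, hi, rfl⟩ | ⟨i, hi, rfl⟩) | h
    · change Psi J J' (ofM i pp) = _
      rw [Psi_ofM, psiF_of hd b hi]
      rfl
    · change Psi J J' (ofM i qq) = _
      rw [Psi_ofM, psiF_of hd b hi]
      rfl
    · rw [Set.mem_singleton_iff] at h
      subst h
      change Psi J J' (PushoutI.base _ _) = _
      rw [Psi_base, ← PushoutI.of_apply_eq_base (thB J J') b]
      rfl
  | one => rw [map_one]; exact (map_one _).symm
  | mul x y hx hy ihx ihy =>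
    rw [map_mul, ihx, ihy, ← map_mul]
    rfl
  | inv x hx ih =>
    rw [map_inv, ih, ← map_inv]
    rfl

theorem mem_inf [Nonempty ι] {b c : Bool} (hbc : b ≠ c) (z : QQ J J')
    (hb : z ∈ (PushoutI.of (φ := thB J J') b).range)
    (hc : z ∈ (PushoutI.of (φ := thB J J') c).range) : z ∈ (PushoutI.base (thB J J')).range := by
  rw [← PushoutI.inf_of_range_eq_base_range (thB_inj J J') hbc]
  exact ⟨hb, hc⟩

/-- An element of `SB b` with image in the base is a power of `t`. -/
theorem mem_zpowers_of_base [Nonempty ι] (hd : Disjoint J J') (b : Bool) {x : MG ι}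
    (hx : x ∈ SB J J' b) (h : Psi J J' x ∈ (PushoutI.base (thB J J')).range) :
    x ∈ Subgroup.zpowers (mt : MG ι) := by
  obtain ⟨z, hz⟩ := h
  rw [Psi_mem hd b x hx, ← PushoutI.of_apply_eq_base (thB J J') b] at hz
  have h1 := PushoutI.of_injective (φ := thB J J') (thB_inj J J') b hz
  have h2 : PushoutI.base (fun _ : ι => zeta) z = x := congrArg Subtype.val h1
  obtain ⟨n, rfl⟩ := Multiplicative.ofAdd.surjective z
  rw [base_eq_zpow] at h2
  exact ⟨n, h2⟩

theorem zpowers_le (K : Set ι) : Subgroup.zpowers (mt : MG ι) ≤ sub mp mq (mt : MG ι) K := by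
  rw [Subgroup.zpowers_le]
  exact mt_mem K

theorem not_range [Nonempty ι] (hd : Disjoint J J') {b c : Bool} (hbc : b ≠ c) {x : MG ι}
    (hx : x ∈ SB J J' b) (hxc : x ∉ SB J J' c) :
    Psi J J' x ∈ (PushoutI.of (φ := thB J J') b).range ∧
      Psi J J' x ∉ (PushoutI.of (φ := thB J J') c).range := by
  have h1 : Psi J J' x ∈ (PushoutI.of (φ := thB J J') b).range :=
    ⟨⟨x, hx⟩, (Psi_mem hd b x hx).symm⟩
  refine ⟨h1, fun h2 => hxc ?_⟩
  exact zpowers_le _ (mem_zpowers_of_base hd b hx (mem_inf hbc _ h1 h2))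

theorem alt_Psi [Nonempty ι] (hd : Disjoint J J') {s : Bool} {n : ℕ} {g : MG ι}
    (hg : Alt (sub mp mq (mt : MG ι) J) (sub mp mq (mt : MG ι) J') s n g) :
    Alt (PushoutI.of (φ := thB J J') true).range (PushoutI.of (φ := thB J J') false).range s n
      (Psi J J' g) := by
  have hT : ∀ x, x ∈ sub mp mq (mt : MG ι) J → x ∉ sub mp mq (mt : MG ι) J' →
      Psi J J' x ∈ (PushoutI.of (φ := thB J J') true).range ∧
      Psi J J' x ∉ (PushoutI.of (φ := thB J J') false).range := fun x hx hx' =>
    not_range hd (b := true) (c := false) (by decide) hx hx'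
  have hF : ∀ x, x ∈ sub mp mq (mt : MG ι) J' → x ∉ sub mp mq (mt : MG ι) J →
      Psi J J' x ∈ (PushoutI.of (φ := thB J J') false).range ∧
      Psi J J' x ∉ (PushoutI.of (φ := thB J J') true).range := fun x hx hx' =>
    not_range hd (b := false) (c := true) (by decide) hx hx'
  induction hg with
  | a x hx hxB => exact Alt.a _ (hT x hx hxB).1 (hT x hx hxB).2
  | b x hx hxA => exact Alt.b _ (hF x hx hxA).1 (hF x hx hxA).2
  | ca x y n hx hxB _ ih =>
    rw [map_mul]
    exact Alt.ca _ _ _ (hT x hx hxB).1 (hT x hx hxB).2 ih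
  | cb x y n hx hxA _ ih =>
    rw [map_mul]
    exact Alt.cb _ _ _ (hF x hx hxA).1 (hF x hx hxA).2 ih

end Split

theorem split_nf {ι : Type} (J J' : Set ι) (h : Disjoint J J') :
    NormalForm (sub mp mq mt J) (sub mp mq (mt : MG ι) J') := by
  rcases isEmpty_or_nonempty ι with hι | hι
  · have hJ : J = J' := by
      ext x
      exact hι.elim x
    subst hJ
    intro s n g _ hg
    exfalso
    cases hg with
    | a x hx hxB => exact hxB hx
    | b x hx hxA => exact hxA hx
    | ca x y n hx hxB _ => exact hxB hx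
    | cb x y n hx hxA _ => exact hxA hx
  · intro s n g hn hg
    have h1 := pushout_nf (thB_inj J J') (i := true) (j := false) (by decide) s n _ hn
      (alt_Psi h hg)
    exact ⟨fun hA => h1.1 ⟨⟨g, hA⟩, (Psi_mem h true g hA).symm⟩,
      fun hB => h1.2 ⟨⟨g, hB⟩, (Psi_mem h false g hB).symm⟩⟩

theorem split_inf {ι : Type} (J J' : Set ι) (h : Disjoint J J') :
    sub mp mq mt J ⊓ sub mp mq (mt : MG ι) J' = Subgroup.zpowers mt := by
  rcases isEmpty_or_nonempty ι with hι | hι
  · have hJ : ∀ K : Set ι, sub mp mq (mt : MG ι) K = Subgroup.zpowers mt := by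
      intro K
      have hK : K = ∅ := by
        ext x
        exact hι.elim x
      rw [sub, hK, Set.image_empty, Set.image_empty, Set.empty_union, Set.empty_union,
        Subgroup.zpowers_eq_closure]
    rw [hJ, hJ, inf_idem]
  · apply le_antisymm
    · rintro x ⟨hx, hx'⟩
      refine mem_zpowers_of_base h true hx (mem_inf (b := true) (c := false) (by decide) _ ?_ ?_)
      · exact ⟨⟨x, hx⟩, (Psi_mem h true x hx).symm⟩
      · exact ⟨⟨x, hx'⟩, (Psi_mem h false x hx').symm⟩
    · exact le_inf (zpowers_le J) (zpowers_le J')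

end Vale.Agent.P189.M
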